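import Mathlib
import Crest.Prelude.Def_ProductShift

/-! Abstract part of S0151: the determinant of `T - z` relative to a tracial vector, `T` quasinilpotent. -/

namespace Crest.Agent.R113C

open Filter Topology Polynomial Crest.AnalysisR.ProductShift

section Abs

variable {A : Type*} [CStarAlgebra A]

/-- antiderivative of a real polynomial -/
lemma exists_antideriv (q : ℝ[X]) : ∃ p : ℝ[X], derivative p = q := by
  induction q using Polynomial.induction_on' with
  | add p q hp hq =>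
    obtain ⟨p', hp'⟩ := hp
    obtain ⟨q', hq'⟩ := hq
    exact ⟨p' + q', by simp [hp', hq']⟩
  | monomial n a =>
    refine ⟨monomial (n + 1) (a / (n + 1)), ?_⟩
    rw [derivative_monomial]
    have : ((n : ℝ) + 1) ≠ 0 := by positivity
    simp only [add_tsub_cancel_right]
    congr 1
    push_cast
    field_simp

lemma trace_closure (τ : A →L[ℂ] ℂ) (B : Set A) (htr : ∀ a ∈ B, ∀ b ∈ B, τ (a * b) = τ (b * a)) :
    ∀ a ∈ closure B, ∀ b ∈ closure B, τ (a * b) = τ (b * a) := by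
  have h1 : ∀ a ∈ closure B, ∀ b ∈ B, τ (a * b) = τ (b * a) := by
    intro a ha b hb
    have hcl : IsClosed {a : A | τ (a * b) = τ (b * a)} := isClosed_eq (by fun_prop) (by fun_prop)
    exact closure_minimal (fun x hx => htr x hx b hb) hcl ha
  intro a ha b hb
  have hcl : IsClosed {b : A | τ (a * b) = τ (b * a)} := isClosed_eq (by fun_prop) (by fun_prop)
  exact closure_minimal (fun x hx => h1 a ha x hx) hcl hb

lemma pow_deriv (τ : A →L[ℂ] ℂ) (B : StarSubalgebra ℂ A)
    (htr : ∀ a ∈ B, ∀ b ∈ B, τ (a * b) = τ (b * a))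
    (X : ℝ → A) (X' : A) (t : ℝ) (hX : HasDerivAt X X' t) (hB : X t ∈ B) (hB' : X' ∈ B) (n : ℕ) :
    ∃ D : A, HasDerivAt (fun s => X s ^ (n + 1)) D t ∧
      ∀ m : ℕ, τ (D * X t ^ m) = ((n : ℂ) + 1) * τ (X t ^ (n + m) * X') := by
  induction n with
  | zero =>
    refine ⟨X', by simpa using hX, fun m => ?_⟩
    simp only [CharP.cast_eq_zero, zero_add, one_mul]
    exact htr _ hB' _ (pow_mem hB m)
  | succ n ih =>
    obtain ⟨D, hD, hτ⟩ := ih
    refine ⟨D * X t + X t ^ (n + 1) * X', ?_, fun m => ?_⟩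
    · have := hD.mul hX
      refine this.congr_of_eventuallyEq (Eventually.of_forall fun s => ?_)
      simp [pow_succ]
    · have e1 : (D * X t + X t ^ (n + 1) * X') * X t ^ m
          = D * X t ^ (m + 1) + (X t ^ (n + 1) * X') * X t ^ m := by
        rw [add_mul, pow_succ' (X t) m, mul_assoc D]
      rw [e1, map_add, hτ (m + 1), htr _ (mul_mem (pow_mem hB _) hB') _ (pow_mem hB m),
        ← mul_assoc, ← pow_add]
      have e2 : n + (m + 1) = n + 1 + m := by ring
      have e3 : m + (n + 1) = n + 1 + m := by ring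
      rw [e2, e3]
      push_cast
      ring

lemma poly_deriv (τ : A →L[ℂ] ℂ) (B : StarSubalgebra ℂ A)
    (htr : ∀ a ∈ B, ∀ b ∈ B, τ (a * b) = τ (b * a))
    (X : ℝ → A) (X' : A) (t : ℝ) (hX : HasDerivAt X X' t) (hB : X t ∈ B) (hB' : X' ∈ B)
    (p : ℝ[X]) :
    HasDerivAt (fun s => τ (aeval (X s) p)) (τ (aeval (X t) (derivative p) * X')) t := by
  induction p using Polynomial.induction_on' with
  | add p q hp hq =>
    have := hp.add hq
    simp only [map_add, add_mul]
    exact this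
  | monomial n a =>
    cases n with
    | zero =>
      simp only [monomial_zero_left, aeval_C, derivative_C, map_zero, zero_mul]
      exact hasDerivAt_const _ _
    | succ n =>
      obtain ⟨D, hD, hτ⟩ := pow_deriv τ B htr X X' t hX hB hB' n
      have h1 : HasDerivAt (fun s => τ (X s ^ (n + 1))) (τ D) t :=
        (τ.restrictScalars ℝ).hasFDerivAt.comp_hasDerivAt t hD
      have h2 := h1.const_mul (a : ℂ)
      have h3 : τ D = ((n : ℂ) + 1) * τ (X t ^ n * X') := by simpa using hτ 0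
      have e : ∀ (r : ℝ) (y : A), τ (algebraMap ℝ A r * y) = (r : ℂ) * τ y := by
        intro r y
        rw [← Algebra.smul_def]
        have : r • y = (r : ℂ) • y := rfl
        rw [this, map_smul, smul_eq_mul]
      simp only [derivative_monomial, aeval_monomial, add_tsub_cancel_right, mul_assoc, e]
      refine h2.congr_deriv ?_
      rw [h3]
      push_cast
      ring

/-- constancy of `τ (log X_t)` along a path with vanishing logarithmic derivative -/
lemma log_path (τ : A →L[ℂ] ℂ) (B : StarSubalgebra ℂ A)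
    (htr : ∀ a ∈ B, ∀ b ∈ B, τ (a * b) = τ (b * a))
    (X X' : ℝ → A) (δ M L : ℝ) (hδ : 0 < δ) (hδM : δ ≤ M) (hL : 0 ≤ L)
    (hX : ∀ t, HasDerivAt X (X' t) t) (hB : ∀ t, X t ∈ B) (hB' : ∀ t, X' t ∈ B)
    (hsa : ∀ t, IsSelfAdjoint (X t))
    (hsp : ∀ t ∈ Set.Icc (0 : ℝ) 1, spectrum ℝ (X t) ⊆ Set.Icc δ M)
    (hL' : ∀ t ∈ Set.Icc (0 : ℝ) 1, ‖X' t‖ ≤ L)
    (h0 : ∀ t ∈ Set.Icc (0 : ℝ) 1, τ (cfc (fun x : ℝ => x⁻¹) (X t) * X' t) = 0) :
    τ (cfc Real.log (X 1)) = τ (cfc Real.log (X 0)) := by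
  have key : ∀ η : ℝ, 0 < η → ‖τ (cfc Real.log (X 1)) - τ (cfc Real.log (X 0))‖
      ≤ η * (‖τ‖ * (L + 2 * (M - δ))) := by
    intro η hη
    have hinv : ContinuousOn (fun x : ℝ => x⁻¹) (Set.Icc δ M) :=
      continuousOn_inv₀.mono fun x hx => (hδ.trans_le hx.1).ne'
    obtain ⟨q, hq⟩ := exists_polynomial_near_of_continuousOn δ M _ hinv η hη
    obtain ⟨p₀, hp₀⟩ := exists_antideriv q
    set p : ℝ[X] := p₀ + C (Real.log δ - p₀.eval δ) with hp
    have hpd : derivative p = q := by simp [hp, hp₀]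
    have hpδ : p.eval δ = Real.log δ := by simp [hp]
    have hplog : ∀ x ∈ Set.Icc δ M, |p.eval x - Real.log x| ≤ η * (M - δ) := by
      intro x hx
      have hder : ∀ y ∈ Set.Icc δ M, HasDerivWithinAt (fun y => p.eval y - Real.log y)
          (q.eval y - y⁻¹) (Set.Icc δ M) y := by
        intro y hy
        have := (p.hasDerivAt y).sub (Real.hasDerivAt_log (hδ.trans_le hy.1).ne')
        rw [hpd] at this
        exact this.hasDerivWithinAt
      have := Convex.norm_image_sub_le_of_norm_hasDerivWithin_le hder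
        (fun y hy => (hq y hy).le) (convex_Icc δ M) ⟨le_rfl, hδM⟩ hx
      simp only [hpδ, sub_self, sub_zero, Real.norm_eq_abs] at this
      refine this.trans (mul_le_mul_of_nonneg_left ?_ hη.le)
      rw [abs_of_nonneg (by linarith [hx.1])]
      linarith [hx.2]
    have hlogc : ∀ t ∈ Set.Icc (0 : ℝ) 1, ContinuousOn Real.log (spectrum ℝ (X t)) := fun t ht =>
      Real.continuousOn_log.mono fun x hx => (hδ.trans_le (hsp t ht hx).1).ne'
    have hA : ∀ t ∈ Set.Icc (0 : ℝ) 1,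
        ‖aeval (X t) p - cfc Real.log (X t)‖ ≤ η * (M - δ) := by
      intro t ht
      rw [← cfc_polynomial p (X t) (hsa t), ← cfc_sub _ _ _ (by fun_prop) (hlogc t ht)]
      exact norm_cfc_le (by nlinarith) fun x hx => hplog x (hsp t ht hx)
    have hQ : ∀ t ∈ Set.Icc (0 : ℝ) 1,
        ‖aeval (X t) q - cfc (fun x : ℝ => x⁻¹) (X t)‖ ≤ η := by
      intro t ht
      rw [← cfc_polynomial q (X t) (hsa t),
        ← cfc_sub _ _ _ (by fun_prop) (hinv.mono (hsp t ht))]
      exact norm_cfc_le hη.le fun x hx => (hq x (hsp t ht hx)).le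
    have hMV : ‖τ (aeval (X 1) p) - τ (aeval (X 0) p)‖ ≤ ‖τ‖ * (η * L) := by
      refine norm_image_sub_le_of_norm_deriv_le_segment_01'
        (f := fun s => τ (aeval (X s) p)) (f' := fun t => τ (aeval (X t) q * X' t)) ?_ ?_
      · intro t _
        have := poly_deriv τ B htr X (X' t) t (hX t) (hB t) (hB' t) p
        rw [hpd] at this
        exact this.hasDerivWithinAt
      · intro t ht
        have ht' : t ∈ Set.Icc (0 : ℝ) 1 := ⟨ht.1, ht.2.le⟩
        have e : τ (aeval (X t) q * X' t)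
            = τ ((aeval (X t) q - cfc (fun x : ℝ => x⁻¹) (X t)) * X' t) := by
          rw [sub_mul, map_sub, h0 t ht', sub_zero]
        rw [e]
        refine (τ.le_opNorm _).trans (mul_le_mul_of_nonneg_left ?_ (norm_nonneg _))
        exact (norm_mul_le _ _).trans (mul_le_mul (hQ t ht') (hL' t ht') (norm_nonneg _) hη.le)
    have h1 := (τ.le_opNorm _).trans
      (mul_le_mul_of_nonneg_left (hA 1 ⟨zero_le_one, le_rfl⟩) (norm_nonneg τ))
    have h2 := (τ.le_opNorm _).trans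
      (mul_le_mul_of_nonneg_left (hA 0 ⟨le_rfl, zero_le_one⟩) (norm_nonneg τ))
    rw [map_sub] at h1 h2
    have e : τ (cfc Real.log (X 1)) - τ (cfc Real.log (X 0))
        = (τ (aeval (X 1) p) - τ (aeval (X 0) p))
          - (τ (aeval (X 1) p) - τ (cfc Real.log (X 1)))
          + (τ (aeval (X 0) p) - τ (cfc Real.log (X 0))) := by ring
    rw [e]
    refine (norm_add_le _ _).trans ?_
    have := norm_sub_le (τ (aeval (X 1) p) - τ (aeval (X 0) p))
      (τ (aeval (X 1) p) - τ (cfc Real.log (X 1)))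
    nlinarith
  rw [← sub_eq_zero, ← norm_le_zero_iff]
  refine le_of_forall_pos_le_add fun ε hε => ?_
  set K := ‖τ‖ * (L + 2 * (M - δ)) with hK
  have hK0 : 0 ≤ K := mul_nonneg (norm_nonneg _) (by linarith)
  have := key (ε / (K + 1)) (by positivity)
  refine this.trans ?_
  rw [zero_add, div_mul_eq_mul_div, div_le_iff₀ (by positivity)]
  nlinarith

/-- spectrum bounds for `a* a` with `a` invertible -/
lemma spec_bound [Nontrivial A] (a R : A) (h1 : a * R = 1) (h2 : R * a = 1) (K M : ℝ) (hK : 0 < K)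
    (hR : ‖R‖ ≤ K) (ha : ‖a‖ ≤ M) :
    spectrum ℝ (star a * a) ⊆ Set.Icc (K ^ 2)⁻¹ (M ^ 2) ∧
      cfc (fun x : ℝ => x⁻¹) (star a * a) = R * star R := by
  have h1' : star R * star a = 1 := by rw [← star_mul, h1, star_one]
  have h2' : star a * star R = 1 := by rw [← star_mul, h2, star_one]
  let u : Aˣ := ⟨star a * a, R * star R,
    by rw [mul_assoc, ← mul_assoc a, h1, one_mul, h2'],
    by rw [mul_assoc, ← mul_assoc (star R), h1', one_mul, h2]⟩
  refine ⟨fun x hx => ⟨?_, ?_⟩, ?_⟩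
  · have hx0 : 0 ≤ x := spectrum_star_mul_self_nonneg x hx
    have hxne : x ≠ 0 := by
      rintro rfl
      exact spectrum.zero_notMem ℝ u.isUnit hx
    have hxpos : 0 < x := lt_of_le_of_ne hx0 hxne.symm
    have hmem : x⁻¹ ∈ spectrum ℝ (↑u⁻¹ : A) := by
      rw [← spectrum.inv₀_mem_iff, inv_inv]
      exact hx
    have hle := spectrum.norm_le_norm_of_mem hmem
    have hn : ‖(↑u⁻¹ : A)‖ ≤ K ^ 2 := by
      change ‖R * star R‖ ≤ _
      refine (norm_mul_le _ _).trans ?_
      rw [norm_star, sq]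
      exact mul_le_mul hR hR (norm_nonneg _) hK.le
    rw [Real.norm_eq_abs, abs_of_pos (inv_pos.mpr hxpos)] at hle
    rw [inv_le_comm₀ (by positivity) hxpos]
    exact hle.trans hn
  · have hle := spectrum.norm_le_norm_of_mem hx
    refine (le_abs_self x).trans (hle.trans ((norm_mul_le _ _).trans ?_))
    rw [norm_star, sq]
    exact mul_le_mul ha ha (norm_nonneg _) ((norm_nonneg _).trans ha)
  · exact cfc_inv_id (R := ℝ) u (IsSelfAdjoint.star_mul_self a)

lemma log_path_lin [Nontrivial A] (τ : A →L[ℂ] ℂ) (B : StarSubalgebra ℂ A)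
    (htr : ∀ a ∈ B, ∀ b ∈ B, τ (a * b) = τ (b * a))
    (hstar : ∀ a, τ (star a) = star (τ a))
    (a₀ b : A) (ha₀ : a₀ ∈ B) (hb : b ∈ B) (R : ℝ → A) (K : ℝ) (hK : 0 < K)
    (h1 : ∀ t ∈ Set.Icc (0 : ℝ) 1, (a₀ + (t : ℂ) • b) * R t = 1)
    (h2 : ∀ t ∈ Set.Icc (0 : ℝ) 1, R t * (a₀ + (t : ℂ) • b) = 1)
    (hRB : ∀ t ∈ Set.Icc (0 : ℝ) 1, R t ∈ closure (B : Set A))
    (hRK : ∀ t ∈ Set.Icc (0 : ℝ) 1, ‖R t‖ ≤ K)
    (h0 : ∀ t ∈ Set.Icc (0 : ℝ) 1, τ (R t * b) = 0) :
    τ (cfc Real.log (star (a₀ + b) * (a₀ + b))) = τ (cfc Real.log (star a₀ * a₀)) := by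
  set a : ℝ → A := fun t => a₀ + (t : ℂ) • b with ha
  have haB : ∀ t, a t ∈ B := fun t => add_mem ha₀ (B.smul_mem hb _)
  have hder : ∀ t, HasDerivAt a b t := by
    intro t
    have := ((hasDerivAt_id t).smul_const b).const_add a₀
    simp only [one_smul, id] at this
    exact this
  have hders : ∀ t, HasDerivAt (fun t => star (a t)) (star b) t := by
    intro t
    have := ((hasDerivAt_id t).smul_const (star b)).const_add (star a₀)
    simp only [one_smul, id] at this
    refine this.congr_of_eventuallyEq (Eventually.of_forall fun s => ?_)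
    simp only [ha, star_add, star_smul, RCLike.star_def, Complex.conj_ofReal]
    rfl
  set M := ‖a₀‖ + ‖b‖ with hM
  have hnorm : ∀ t ∈ Set.Icc (0 : ℝ) 1, ‖a t‖ ≤ M := by
    intro t ht
    refine (norm_add_le _ _).trans ?_
    rw [norm_smul, Complex.norm_real, Real.norm_eq_abs, abs_of_nonneg ht.1]
    nlinarith [norm_nonneg b, ht.2]
  have hsb := fun t ht => spec_bound (a t) (R t) (h1 t ht) (h2 t ht) K M hK (hRK t ht) (hnorm t ht)
  have hδM : (K ^ 2)⁻¹ ≤ M ^ 2 := by
    obtain ⟨x, hx⟩ : (spectrum ℝ (star (a 0) * a 0)).Nonempty :=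
      ContinuousFunctionalCalculus.spectrum_nonempty (R := ℝ) _ (IsSelfAdjoint.star_mul_self _)
    have := (hsb 0 ⟨le_rfl, zero_le_one⟩).1 hx
    exact this.1.trans this.2
  have htr' := trace_closure τ (B : Set A) htr
  have main := log_path τ B htr (fun t => star (a t) * a t)
    (fun t => star b * a t + star (a t) * b) (K ^ 2)⁻¹ (M ^ 2) (2 * (‖b‖ * M)) (by positivity) hδM
    (by positivity) (fun t => (hders t).mul (hder t))
    (fun t => mul_mem (star_mem (haB t)) (haB t))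
    (fun t => add_mem (mul_mem (star_mem hb) (haB t)) (mul_mem (star_mem (haB t)) hb))
    (fun t => IsSelfAdjoint.star_mul_self _) (fun t ht => (hsb t ht).1) ?_ ?_
  · simpa [ha] using main
  · intro t ht
    refine (norm_add_le _ _).trans ?_
    have e1 := norm_mul_le (star b) (a t)
    have e2 := norm_mul_le (star (a t)) b
    rw [norm_star] at e1 e2
    have := mul_le_mul_of_nonneg_left (hnorm t ht) (norm_nonneg b)
    nlinarith
  · intro t ht
    rw [(hsb t ht).2, mul_add, map_add]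
    have h1' : star (R t) * star (a t) = 1 := by rw [← star_mul, h1 t ht, star_one]
    have e2 : R t * star (R t) * (star (a t) * b) = R t * b := by
      rw [mul_assoc, ← mul_assoc (star (R t)), h1', one_mul]
    have hcl : ∀ x, x ∈ closure (B : Set A) ↔ x ∈ B.topologicalClosure := fun x => Iff.rfl
    have e1 : τ (R t * star (R t) * (star b * a t)) = τ (star (b * R t)) := by
      rw [← mul_assoc, htr' _ ?_ _ (subset_closure (haB t)), ← mul_assoc, ← mul_assoc, h1 t ht,
        one_mul, star_mul]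
      rw [hcl]
      have hR := (hcl _).1 (hRB t ht)
      exact mul_mem (mul_mem hR (star_mem hR)) (star_mem ((hcl _).1 (subset_closure hb)))
    rw [e1, e2, hstar, htr' _ (subset_closure hb) _ (hRB t ht), h0 t ht]
    simp

/-- the infimum over `ε` for an invertible element -/
lemma iInf_log (τ : A →L[ℂ] ℂ) (hpos : ∀ b, 0 ≤ (τ (star b * b)).re) (X : A)
    (hsa : IsSelfAdjoint X) (δ : ℝ) (hδ : 0 < δ) (hsp : ∀ x ∈ spectrum ℝ X, δ ≤ x) :
    (⨅ ε : {r : ℝ // 0 < r}, Real.exp ((τ (cfc Real.log (X + ((ε : ℝ) : ℂ) • (1 : A)))).re / 2))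
      = Real.exp ((τ (cfc Real.log X)).re / 2) := by
  have hlogc : ContinuousOn Real.log (spectrum ℝ X) :=
    Real.continuousOn_log.mono fun x hx => (hδ.trans_le (hsp x hx)).ne'
  have hε : ∀ ε : ℝ, 0 < ε → (τ (cfc Real.log X)).re ≤ (τ (cfc Real.log (X + (ε : ℂ) • (1 : A)))).re ∧
      (τ (cfc Real.log (X + (ε : ℂ) • (1 : A)))).re ≤ (τ (cfc Real.log X)).re + ‖τ‖ * (ε / δ) := by
    intro ε hε
    have hc : ContinuousOn (fun x : ℝ => Real.log (x + ε)) (spectrum ℝ X) := by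
      refine ContinuousOn.log (by fun_prop) fun x hx => ?_
      have := hsp x hx
      linarith
    have e0 : X + (ε : ℂ) • (1 : A) = cfc (fun x : ℝ => x + ε) X := by
      rw [cfc_add_const ε (fun x : ℝ => x) X, cfc_id' ℝ X, Algebra.algebraMap_eq_smul_one]
      rfl
    have e1 : cfc Real.log (X + (ε : ℂ) • (1 : A)) = cfc (fun x : ℝ => Real.log (x + ε)) X := by
      rw [e0, ← cfc_comp' Real.log (fun x : ℝ => x + ε) X ?_]
      refine Real.continuousOn_log.mono ?_
      rintro _ ⟨x, hx, rfl⟩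
      have := hsp x hx
      simp only [Set.mem_compl_iff, Set.mem_singleton_iff]
      linarith
    set f : ℝ → ℝ := fun x => Real.log (x + ε) - Real.log x with hf
    have hfc : ContinuousOn f (spectrum ℝ X) := hc.sub hlogc
    have hf0 : ∀ x ∈ spectrum ℝ X, 0 ≤ f x ∧ f x ≤ ε / δ := by
      intro x hx
      have hx' := hsp x hx
      have hxpos : 0 < x := hδ.trans_le hx'
      refine ⟨sub_nonneg.mpr (Real.log_le_log hxpos (by linarith)), ?_⟩
      simp only [hf]
      rw [← Real.log_div (by linarith) hxpos.ne']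
      refine (Real.log_le_sub_one_of_pos (by positivity)).trans ?_
      rw [add_div, div_self hxpos.ne', add_sub_cancel_left]
      exact div_le_div_of_nonneg_left hε.le hδ hx'
    have e2 : cfc (fun x : ℝ => Real.log (x + ε)) X = cfc Real.log X + cfc f X := by
      rw [hf, cfc_sub _ _ _ hc hlogc]
      abel
    have e3 : cfc f X = star (cfc (fun x => Real.sqrt (f x)) X) * cfc (fun x => Real.sqrt (f x)) X := by
      rw [(cfc_predicate (R := ℝ) (fun x => Real.sqrt (f x)) X).star_eq,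
        ← cfc_mul _ _ _ hfc.sqrt hfc.sqrt]
      exact cfc_congr fun x hx => (Real.mul_self_sqrt (hf0 x hx).1).symm
    have hn : ‖cfc f X‖ ≤ ε / δ := norm_cfc_le (by positivity) fun x hx => by
      rw [Real.norm_eq_abs, abs_of_nonneg (hf0 x hx).1]
      exact (hf0 x hx).2
    rw [e1, e2, map_add, Complex.add_re]
    constructor
    · have := hpos (cfc (fun x => Real.sqrt (f x)) X)
      rw [← e3] at this
      linarith
    · have h1 := Complex.re_le_norm (τ (cfc f X))
      have h2 := (τ.le_opNorm _).trans (mul_le_mul_of_nonneg_left hn (norm_nonneg τ))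
      linarith
  apply le_antisymm
  · have hbdd : BddBelow (Set.range fun ε : {r : ℝ // 0 < r} =>
        Real.exp ((τ (cfc Real.log (X + ((ε : ℝ) : ℂ) • (1 : A)))).re / 2)) :=
      ⟨0, by rintro _ ⟨ε, rfl⟩; exact (Real.exp_pos _).le⟩
    have hlim : Tendsto (fun ε : ℝ => Real.exp (((τ (cfc Real.log X)).re + ‖τ‖ * (ε / δ)) / 2))
        (𝓝[>] 0) (𝓝 (Real.exp ((τ (cfc Real.log X)).re / 2))) := by
      have hc : Continuous fun ε : ℝ =>
          Real.exp (((τ (cfc Real.log X)).re + ‖τ‖ * (ε / δ)) / 2) := by fun_prop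
      have := hc.tendsto 0
      simp only [zero_div, mul_zero, add_zero] at this
      exact this.mono_left nhdsWithin_le_nhds
    refine ge_of_tendsto hlim ?_
    filter_upwards [self_mem_nhdsWithin] with ε hε'
    refine (ciInf_le hbdd ⟨ε, hε'⟩).trans (Real.exp_le_exp.mpr ?_)
    have := (hε ε hε').2
    linarith
  · have : Nonempty {r : ℝ // 0 < r} := ⟨⟨1, one_pos⟩⟩
    refine le_ciInf fun ε => Real.exp_le_exp.mpr ?_
    have := (hε ε ε.2).1
    linarith

lemma summable_norm_pow_of_qn (T : A) (hq : Tendsto (fun n : ℕ => ‖T ^ n‖ ^ (1 / (n : ℝ))) atTop (𝓝 0))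
    (c : ℝ) (hc : 0 < c) : Summable fun n : ℕ => c ^ n * ‖T ^ n‖ := by
  have hev := hq.eventually (gt_mem_nhds (show (0 : ℝ) < 1 / (2 * c) by positivity))
  refine Summable.of_norm_bounded_eventually_nat summable_geometric_two ?_
  filter_upwards [hev, eventually_ge_atTop 1] with n hn hn1
  have hn0 : (n : ℝ) ≠ 0 := by positivity
  have h1 : ‖T ^ n‖ ≤ (1 / (2 * c)) ^ n := by
    have := pow_le_pow_left₀ (by positivity) hn.le n
    rwa [one_div (n : ℝ), Real.rpow_inv_natCast_pow (norm_nonneg _) (by omega)] at this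
  rw [Real.norm_eq_abs, abs_of_nonneg (by positivity)]
  refine (mul_le_mul_of_nonneg_left h1 (by positivity)).trans (le_of_eq ?_)
  rw [← mul_pow]
  congr 1
  field_simp

theorem abs_main [Nontrivial A] (τ : A →L[ℂ] ℂ) (hone : τ 1 = 1)
    (hstar : ∀ a, τ (star a) = star (τ a)) (hpos : ∀ b, 0 ≤ (τ (star b * b)).re) (T : A)
    (htr : ∀ a ∈ StarAlgebra.adjoin ℂ ({T} : Set A), ∀ b ∈ StarAlgebra.adjoin ℂ ({T} : Set A),
      τ (a * b) = τ (b * a))
    (hq : Tendsto (fun n : ℕ => ‖T ^ n‖ ^ (1 / (n : ℝ))) atTop (𝓝 0))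
    (h0 : ∀ k : ℕ, 1 ≤ k → τ (T ^ k) = 0) (z : ℂ) (hz : z ≠ 0) :
    (⨅ ε : {r : ℝ // 0 < r}, Real.exp ((τ (cfc Real.log
      (star (T - z • 1) * (T - z • 1) + ((ε : ℝ) : ℂ) • (1 : A)))).re / 2)) = ‖z‖ := by
  set B := StarAlgebra.adjoin ℂ ({T} : Set A) with hBdef
  have hTB : T ∈ B := StarAlgebra.self_mem_adjoin_singleton ℂ T
  have hzn : 0 < ‖z‖ := norm_pos_iff.mpr hz
  have hS := summable_norm_pow_of_qn T hq ‖z‖⁻¹ (by positivity)
  set u : ℝ → A := fun t => ((t : ℂ) * z⁻¹) • T with hu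
  have hun : ∀ t ∈ Set.Icc (0 : ℝ) 1, ∀ n : ℕ, ‖u t ^ n‖ ≤ ‖z‖⁻¹ ^ n * ‖T ^ n‖ := by
    intro t ht n
    simp only [hu, _root_.smul_pow, norm_smul, norm_pow, norm_mul, norm_inv, Complex.norm_real,
      Real.norm_eq_abs, abs_of_nonneg ht.1]
    refine mul_le_mul_of_nonneg_right (pow_le_pow_left₀ (by have := ht.1; positivity) ?_ n)
      (norm_nonneg _)
    exact mul_le_of_le_one_left (by positivity) ht.2
  have hsum : ∀ t ∈ Set.Icc (0 : ℝ) 1, Summable fun n : ℕ => u t ^ n := fun t ht =>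
    Summable.of_norm_bounded hS (hun t ht)
  set R : ℝ → A := fun t => (-z⁻¹) • ∑' n : ℕ, u t ^ n with hR
  have ha : ∀ t : ℝ, -(z • (1 : A)) + (t : ℂ) • T = (-z) • (1 - u t) := by
    intro t
    simp only [hu, smul_sub, smul_smul]
    have : -z * ((t : ℂ) * z⁻¹) = -t := by field_simp
    rw [this]
    simp
  have h1 : ∀ t ∈ Set.Icc (0 : ℝ) 1, (-(z • (1 : A)) + (t : ℂ) • T) * R t = 1 := by
    intro t ht
    rw [ha, hR, smul_mul_smul_comm, (hsum t ht).one_sub_mul_tsum_pow]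
    have : -z * -z⁻¹ = 1 := by field_simp
    rw [this, one_smul]
  have h2 : ∀ t ∈ Set.Icc (0 : ℝ) 1, R t * (-(z • (1 : A)) + (t : ℂ) • T) = 1 := by
    intro t ht
    rw [ha, hR, smul_mul_smul_comm, (hsum t ht).tsum_pow_mul_one_sub]
    have : -z⁻¹ * -z = 1 := by field_simp
    rw [this, one_smul]
  set K := ‖z‖⁻¹ * (∑' n : ℕ, ‖z‖⁻¹ ^ n * ‖T ^ n‖) + 1 with hK
  have hK0 : 0 < K := by
    have : 0 ≤ ∑' n : ℕ, ‖z‖⁻¹ ^ n * ‖T ^ n‖ := tsum_nonneg fun n => by positivity
    positivity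
  have hRK : ∀ t ∈ Set.Icc (0 : ℝ) 1, ‖R t‖ ≤ K := by
    intro t ht
    simp only [hR, norm_smul, norm_neg, norm_inv]
    have := tsum_of_norm_bounded hS.hasSum (hun t ht)
    have := mul_le_mul_of_nonneg_left this (inv_nonneg.mpr hzn.le)
    linarith
  have hRB : ∀ t ∈ Set.Icc (0 : ℝ) 1, R t ∈ closure (B : Set A) := by
    intro t ht
    change R t ∈ B.topologicalClosure
    refine StarSubalgebra.smul_mem _ ?_ _
    change _ ∈ closure (B : Set A)
    refine mem_closure_of_tendsto (hsum t ht).hasSum (Eventually.of_forall fun s => ?_)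
    exact sum_mem fun n _ => pow_mem (B.smul_mem hTB _) n
  have hR0 : ∀ t ∈ Set.Icc (0 : ℝ) 1, τ (R t * T) = 0 := by
    intro t ht
    simp only [hR, smul_mul_assoc, map_smul]
    have hs := ((hsum t ht).hasSum.mul_right T).mapL τ
    have hz' : ∀ n : ℕ, τ (u t ^ n * T) = 0 := by
      intro n
      simp only [hu, _root_.smul_pow, smul_mul_assoc, map_smul, ← pow_succ, h0 (n + 1) (by omega),
        smul_zero]
    simp only [hz'] at hs
    rw [hs.unique hasSum_zero, smul_zero]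
  have main := log_path_lin τ B htr hstar (-(z • (1 : A))) T
    (neg_mem (B.smul_mem (one_mem B) z)) hTB R K hK0 h1 h2 hRB hRK hR0
  have e : T - z • (1 : A) = -(z • (1 : A)) + T := by abel
  have h11 := h1 1 ⟨zero_le_one, le_rfl⟩
  have h21 := h2 1 ⟨zero_le_one, le_rfl⟩
  simp only [Complex.ofReal_one, one_smul] at h11 h21
  have hsp := (spec_bound _ _ h11 h21 K _ hK0 (hRK 1 ⟨zero_le_one, le_rfl⟩) le_rfl).1
  rw [e, iInf_log τ hpos _ (IsSelfAdjoint.star_mul_self _) (K ^ 2)⁻¹ (by positivity)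
    (fun x hx => (hsp hx).1), main]
  have e2 : star (-(z • (1 : A))) * -(z • (1 : A)) = algebraMap ℝ A (‖z‖ ^ 2) := by
    rw [star_neg, neg_mul_neg, star_smul, star_one, smul_mul_smul_comm, one_mul,
      Algebra.algebraMap_eq_smul_one]
    have : star z * z = ((‖z‖ ^ 2 : ℝ) : ℂ) := by
      rw [RCLike.star_def, Complex.conj_mul']
      push_cast
      ring
    rw [this]
    rfl
  rw [e2, cfc_algebraMap, Algebra.algebraMap_eq_smul_one]
  have e3 : Real.log (‖z‖ ^ 2) • (1 : A) = ((Real.log (‖z‖ ^ 2) : ℝ) : ℂ) • (1 : A) := rfl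
  rw [e3, map_smul, hone, smul_eq_mul, mul_one, Complex.ofReal_re, Real.log_pow]
  have : ((2 : ℕ) : ℝ) * Real.log ‖z‖ / 2 = Real.log ‖z‖ := by push_cast; ring
  rw [this, Real.exp_log hzn]

end Abs

theorem vectorDet_sub_of_tracial {H : Type*} [NormedAddCommGroup H] [InnerProductSpace ℂ H]
    [CompleteSpace H] (ξ : H) (hξ : ‖ξ‖ = 1) (T : H →L[ℂ] H)
    (htr : ∀ a ∈ StarAlgebra.adjoin ℂ ({T} : Set (H →L[ℂ] H)),
      ∀ b ∈ StarAlgebra.adjoin ℂ ({T} : Set (H →L[ℂ] H)),
        inner ℂ ξ ((a * b) ξ) = inner ℂ ξ ((b * a) ξ))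
    (hq : Tendsto (fun n : ℕ => ‖T ^ n‖ ^ (1 / (n : ℝ))) atTop (𝓝 0))
    (h0 : ∀ k : ℕ, 1 ≤ k → inner ℂ ξ ((T ^ k) ξ) = 0) (z : ℂ) (hz : z ≠ 0) :
    vectorDet ξ (T - z • (1 : H →L[ℂ] H)) = ‖z‖ := by
  have : Nontrivial H := ⟨⟨ξ, 0, fun h => by simp [h] at hξ⟩⟩
  let τ : (H →L[ℂ] H) →L[ℂ] ℂ := (innerSL ℂ ξ).comp (ContinuousLinearMap.apply ℂ H ξ)
  have hτ : ∀ a, τ a = inner ℂ ξ (a ξ) := fun a => rfl
  refine abs_main τ ?_ ?_ ?_ T htr hq h0 z hz
  · rw [hτ, ContinuousLinearMap.one_apply, inner_self_eq_norm_sq_to_K, hξ]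
    simp
  · intro a
    rw [hτ, hτ, ContinuousLinearMap.star_eq_adjoint, ContinuousLinearMap.adjoint_inner_right]
    exact (inner_conj_symm _ _).symm
  · intro b
    rw [hτ, ContinuousLinearMap.mul_apply, ContinuousLinearMap.star_eq_adjoint,
      ContinuousLinearMap.adjoint_inner_right]
    exact inner_self_nonneg (𝕜 := ℂ)

end Crest.Agent.R113C
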