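import Crest.Prelude.Def_ProductShift

set_option autoImplicit false

open MeasureTheory Crest.AnalysisR.ProductShift
open scoped ENNReal

namespace Crest.Agent.R113C

/-- Multiplication by a bounded measurable function is a bounded operator on `L²`. -/
theorem exists_mulOp {X : Type*} [MeasurableSpace X] (μ : Measure X) (m : X → ℂ)
    (hm : Measurable m) (C : ℝ) (hC : ∀ x, ‖m x‖ ≤ C) :
    ∃ M : Lp ℂ 2 μ →L[ℂ] Lp ℂ 2 μ, ∀ g : Lp ℂ 2 μ,
      (M g : X → ℂ) =ᵐ[μ] fun p => m p * (g : X → ℂ) p := by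
  have hmem : MemLp m ⊤ μ :=
    memLp_top_of_bound hm.aestronglyMeasurable C (Filter.Eventually.of_forall hC)
  refine ⟨(ContinuousLinearMap.mul ℂ ℂ).holderL μ ⊤ 2 2 hmem.toLp, fun g => ?_⟩
  have h1 := (ContinuousLinearMap.mul ℂ ℂ).coeFn_holder (r := 2) hmem.toLp g
  filter_upwards [h1, hmem.coeFn_toLp] with x hx hx'
  rw [ContinuousLinearMap.holderL_apply_apply, hx, hx']
  simp

theorem measurable_dropCost (θ c : ℕ → ℝ) : Measurable (dropCost θ c) := by
  unfold dropCost
  refine Measurable.ennreal_tsum fun i => ?_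
  refine ENNReal.measurable_ofReal.comp ?_
  refine measurable_const.mul ?_
  have h : Measurable fun x : ℕ → ℝ => ⌊x i + θ i⌋ :=
    Int.measurable_floor.comp ((measurable_pi_apply i).add_const _)
  exact (measurable_of_countable (fun n : ℤ => (n : ℝ))).comp h

theorem measurable_weight (θ c : ℕ → ℝ) : Measurable (weight θ c) := by
  unfold weight
  refine Measurable.ite ?_ measurable_const ?_
  · exact measurable_dropCost θ c (measurableSet_singleton ⊤)
  · exact Real.measurable_exp.comp (measurable_dropCost θ c).ennreal_toReal.neg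

theorem weight_nonneg (θ c : ℕ → ℝ) (x : ℕ → ℝ) : 0 ≤ weight θ c x := by
  unfold weight
  split_ifs
  · exact le_rfl
  · exact (Real.exp_pos _).le

theorem weight_le_one (θ c : ℕ → ℝ) (x : ℕ → ℝ) : weight θ c x ≤ 1 := by
  unfold weight
  split_ifs
  · exact zero_le_one
  · exact Real.exp_le_one_iff.2 (neg_nonpos.2 ENNReal.toReal_nonneg)

theorem measurable_orbitPoint (θ : ℕ → ℝ) (k : ℤ) : Measurable (orbitPoint θ k) := by
  unfold orbitPoint
  exact measurable_pi_lambda _ fun i =>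
    measurable_fract.comp ((measurable_pi_apply i).add_const _)

theorem orbitPoint_add (θ : ℕ → ℝ) (k l : ℤ) (x : ℕ → ℝ) :
    orbitPoint θ k (orbitPoint θ l x) = orbitPoint θ (k + l) x := by
  funext i
  simp only [orbitPoint]
  rw [Int.fract_eq_fract]
  refine ⟨-⌊x i + (l : ℝ) * θ i⌋, ?_⟩
  rw [Int.fract]
  push_cast
  ring

/-- The shift `(x, k) ↦ (x, k + n)` preserves `pairMeasure`. -/
theorem mp_shift (n : ℤ) :
    MeasurePreserving (fun p : (ℕ → ℝ) × ℤ => (p.1, p.2 + n)) pairMeasure pairMeasure := by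
  unfold pairMeasure
  exact (MeasurePreserving.id cubeMeasure).prod (measurePreserving_add_right Measure.count n)

theorem ae_shift {P : (ℕ → ℝ) × ℤ → Prop} (h : ∀ᵐ p ∂pairMeasure, P p) (n : ℤ) :
    ∀ᵐ p ∂pairMeasure, P (p.1, p.2 + n) :=
  (mp_shift n).quasiMeasurePreserving.ae h

theorem ae_shift_sub {P : (ℕ → ℝ) × ℤ → Prop} (h : ∀ᵐ p ∂pairMeasure, P p) (n : ℤ) :
    ∀ᵐ p ∂pairMeasure, P (p.1, p.2 - n) := by
  simpa [sub_eq_add_neg] using ae_shift h (-n)

theorem ae_fst {P : (ℕ → ℝ) → Prop} (h : ∀ᵐ x ∂cubeMeasure, P x) :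
    ∀ᵐ p ∂pairMeasure, P p.1 := by
  unfold pairMeasure
  exact Measure.quasiMeasurePreserving_fst.ae h

theorem ae_cube : ∀ᵐ x ∂cubeMeasure, ∀ i, x i ∈ Set.Ico (0 : ℝ) 1 := by
  rw [ae_all_iff]
  intro i
  have h : MeasurePreserving (fun x : ℕ → ℝ => x i) cubeMeasure unitLebesgue :=
    measurePreserving_eval_infinitePi (fun _ : ℕ => unitLebesgue) i
  refine h.quasiMeasurePreserving.ae (p := fun t => t ∈ Set.Ico (0 : ℝ) 1) ?_
  unfold unitLebesgue
  exact ae_restrict_mem measurableSet_Ico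

theorem ae_orbit_zero (θ : ℕ → ℝ) : ∀ᵐ x ∂cubeMeasure, orbitPoint θ 0 x = x := by
  filter_upwards [ae_cube] with x hx
  funext i
  simp only [orbitPoint, Int.cast_zero, zero_mul, add_zero]
  exact Int.fract_eq_self.2 ⟨(hx i).1, (hx i).2⟩

theorem coe_vacuum : (vacuumVector : (ℕ → ℝ) × ℤ → ℂ) =ᵐ[pairMeasure]
    fun p => if p.2 = 0 then 1 else 0 := by
  unfold vacuumVector
  refine indicatorConstLp_coeFn.trans (Filter.Eventually.of_forall fun p => ?_)
  by_cases h : p.2 = 0 <;> simp [Set.indicator, h]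

end Crest.Agent.R113C
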