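import Crest.Agent.R113C.Ops

set_option autoImplicit false

open MeasureTheory Crest.AnalysisR.ProductShift
open scoped ENNReal

namespace Crest.Agent.R113C

section Abstract

variable {H : Type*} [NormedAddCommGroup H] [InnerProductSpace ℂ H] [CompleteSpace H]

theorem zero_spec_pos (T : H →L[ℂ] H) (ε : ℝ) (hε : 0 < ε) :
    ∀ t ∈ spectrum ℝ (star T * T + ((ε : ℝ) : ℂ) • (1 : H →L[ℂ] H)), 0 < t := by
  intro t ht
  have h1 : (0 : H →L[ℂ] H) ≤ star T * T := star_mul_self_nonneg T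
  have h2 : algebraMap ℝ (H →L[ℂ] H) ε ≤ star T * T + ((ε : ℝ) : ℂ) • (1 : H →L[ℂ] H) := by
    rw [Algebra.algebraMap_eq_smul_one, Complex.coe_smul]
    exact le_add_of_nonneg_left h1
  have hsa : IsSelfAdjoint (star T * T + ((ε : ℝ) : ℂ) • (1 : H →L[ℂ] H)) := by
    rw [Complex.coe_smul]
    exact (IsSelfAdjoint.star_mul_self T).add ((IsSelfAdjoint.all ε).smul (IsSelfAdjoint.one _))
  have := (algebraMap_le_iff_le_spectrum (R := ℝ) (ha := hsa)).1 h2 t ht
  exact hε.trans_le this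

theorem zero_tangent (T : H →L[ℂ] H) (ε : ℝ) (hε : 0 < ε) (c : ℝ) (hc : 0 < c) (v : H) :
    RCLike.re (inner ℂ v (cfc Real.log (star T * T + ((ε : ℝ) : ℂ) • (1 : H →L[ℂ] H)) v)) ≤
      (Real.log c - 1) * ‖v‖ ^ 2 + (‖T v‖ ^ 2 + ε * ‖v‖ ^ 2) / c := by
  set B : H →L[ℂ] H := star T * T + ((ε : ℝ) : ℂ) • (1 : H →L[ℂ] H) with hB
  have hsa : IsSelfAdjoint B := by
    rw [hB, Complex.coe_smul]
    exact (IsSelfAdjoint.star_mul_self T).add ((IsSelfAdjoint.all ε).smul (IsSelfAdjoint.one _))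
  have hpos := zero_spec_pos T ε hε
  have hcont : ContinuousOn Real.log (spectrum ℝ B) :=
    Real.continuousOn_log.mono fun t ht => (hpos t ht).ne'
  have h1 : cfc Real.log B ≤ cfc (fun t : ℝ => (Real.log c - 1) + c⁻¹ • t) B := by
    refine cfc_mono (fun t ht => ?_) hcont (by fun_prop)
    have ht0 := hpos t ht
    have h := Real.log_le_sub_one_of_pos (div_pos ht0 hc)
    rw [Real.log_div ht0.ne' hc.ne'] at h
    rw [smul_eq_mul, ← div_eq_inv_mul]
    linarith
  have h2 : cfc (fun t : ℝ => (Real.log c - 1) + c⁻¹ • t) B =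
      algebraMap ℝ (H →L[ℂ] H) (Real.log c - 1) + c⁻¹ • B := by
    rw [cfc_const_add _ _ _ (by fun_prop) hsa, cfc_smul_id (R := ℝ) c⁻¹ B hsa]
  rw [h2] at h1
  have h3 := ((ContinuousLinearMap.le_def _ _).1 h1).re_inner_nonneg_right v
  have h4 : inner ℂ v (B v) = ((‖T v‖ ^ 2 + ε * ‖v‖ ^ 2 : ℝ) : ℂ) := by
    rw [hB]
    simp only [ContinuousLinearMap.add_apply, ContinuousLinearMap.mul_apply,
      ContinuousLinearMap.smul_apply, ContinuousLinearMap.one_apply, inner_add_right,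
      inner_smul_right, ContinuousLinearMap.star_eq_adjoint,
      ContinuousLinearMap.adjoint_inner_right, inner_self_eq_norm_sq_to_K]
    push_cast
    rfl
  have h5 : inner ℂ v ((algebraMap ℝ (H →L[ℂ] H) (Real.log c - 1) + c⁻¹ • B) v) =
      (((Real.log c - 1) * ‖v‖ ^ 2 + (‖T v‖ ^ 2 + ε * ‖v‖ ^ 2) / c : ℝ) : ℂ) := by
    rw [Algebra.algebraMap_eq_smul_one, ← Complex.coe_smul, ← Complex.coe_smul]
    simp only [ContinuousLinearMap.add_apply, ContinuousLinearMap.smul_apply,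
      ContinuousLinearMap.one_apply, inner_add_right, inner_smul_right, h4,
      inner_self_eq_norm_sq_to_K]
    push_cast
    simp only [Complex.coe_algebraMap]
    ring
  rw [ContinuousLinearMap.sub_apply, inner_sub_right, map_sub, h5] at h3
  simp only [RCLike.re_to_complex, Complex.ofReal_re] at h3 ⊢
  linarith

theorem zero_split (L : H →L[ℂ] H) (ξ : H) {ι : Type*} (s : Finset ι) (P : ι → H →L[ℂ] H)
    (hsa : ∀ j ∈ s, IsSelfAdjoint (P j)) (hid : ∀ j ∈ s, P j * P j = P j)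
    (hc : ∀ j ∈ s, Commute L (P j)) (hξ : ∑ j ∈ s, P j ξ = ξ) :
    RCLike.re (inner ℂ ξ (L ξ)) = ∑ j ∈ s, RCLike.re (inner ℂ (P j ξ) (L (P j ξ))) := by
  rw [← map_sum]
  congr 1
  conv_lhs => rw [show L ξ = L (∑ j ∈ s, P j ξ) by rw [hξ], map_sum, inner_sum]
  refine Finset.sum_congr rfl fun j hj => ?_
  have h1 : L (P j ξ) = P j (L (P j ξ)) := by
    have : L * P j = P j * (L * P j) := by
      rw [← mul_assoc, ← (hc j hj).eq, mul_assoc, hid j hj]
    exact congrArg (fun A : H →L[ℂ] H => A ξ) this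
  have h2 : ContinuousLinearMap.adjoint (P j) = P j := (hsa j hj).star_eq
  conv_lhs => rw [h1, ← ContinuousLinearMap.adjoint_inner_left, h2]

/-- The regularised logarithm in the definition of `vectorDet`. -/
noncomputable def zL (T : H →L[ℂ] H) (ε : ℝ) : H →L[ℂ] H :=
  cfc Real.log (star T * T + ((ε : ℝ) : ℂ) • (1 : H →L[ℂ] H))

theorem vectorDet_eq_zL (ξ : H) (T : H →L[ℂ] H) :
    vectorDet ξ T = ⨅ ε : {r : ℝ // 0 < r}, Real.exp (RCLike.re (inner ℂ ξ (zL T ε ξ)) / 2) := rfl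

theorem zL_comm (T P : H →L[ℂ] H) (ε : ℝ) (hP : IsSelfAdjoint P) (hc : Commute T P) :
    Commute (zL T ε) P := by
  refine Commute.cfc_real ?_ _
  have h1 : Commute (star T) P := by
    have := hc.star_star
    rwa [hP.star_eq] at this
  exact (h1.mul_left hc).add_left ((Commute.one_left _).smul_left _)

theorem zL_tangent (T : H →L[ℂ] H) (ε : ℝ) (hε : 0 < ε) (c : ℝ) (hc : 0 < c) (v : H) :
    RCLike.re (inner ℂ v (zL T ε v)) ≤
      (Real.log c - 1) * ‖v‖ ^ 2 + (‖T v‖ ^ 2 + ε * ‖v‖ ^ 2) / c :=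
  zero_tangent T ε hε c hc v

end Abstract

/-- Fibrewise projections: multiplication by the indicator of `A × ℤ`. -/
theorem exists_proj (θ c : ℕ → ℝ) (T : pairSpace →L[ℂ] pairSpace) (hT : IsWeightedShift θ c T)
    (A : Set (ℕ → ℝ)) (hA : MeasurableSet A) :
    ∃ P : pairSpace →L[ℂ] pairSpace, IsSelfAdjoint P ∧ P * P = P ∧ Commute T P ∧
      ∀ g : pairSpace, (P g : (ℕ → ℝ) × ℤ → ℂ) =ᵐ[pairMeasure]
        fun p => A.indicator (fun _ => (1 : ℂ)) p.1 * (g : (ℕ → ℝ) × ℤ → ℂ) p := by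
  obtain ⟨P, hP⟩ := exists_mulOp pairMeasure
    (fun p : (ℕ → ℝ) × ℤ => A.indicator (fun _ => (1 : ℂ)) p.1)
    ((measurable_const.indicator hA).comp measurable_fst) 1
    (fun p => by by_cases h : p.1 ∈ A <;> simp [h])
  refine ⟨P, ?_, ?_, ?_, hP⟩
  · rw [ContinuousLinearMap.isSelfAdjoint_iff_isSymmetric]
    intro f g
    simp only [ContinuousLinearMap.coe_coe, L2.inner_def]
    refine integral_congr_ae ?_
    filter_upwards [hP f, hP g] with p h1 h2
    rw [h1, h2]
    by_cases h : p.1 ∈ A <;> simp [h]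
  · ext1 g
    refine Lp.ext ?_
    filter_upwards [hP (P g), hP g] with p h1 h2
    rw [ContinuousLinearMap.mul_apply, h1, h2]
    by_cases h : p.1 ∈ A <;> simp [h]
  · refine ContinuousLinearMap.ext fun g => Lp.ext ?_
    filter_upwards [hT (P g), hP (T g), hT g, ae_shift_sub (hP g) 1] with p h1 h2 h3 h4
    rw [ContinuousLinearMap.mul_apply, ContinuousLinearMap.mul_apply, h1, h2, h3, h4]
    ring

/-- The truncated depth of the weight. -/
noncomputable def zlev (θ c : ℕ → ℝ) (M : ℕ) (x : ℕ → ℝ) : ℕ :=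
  min M ⌊-Real.log (weight θ c x)⌋₊

theorem measurable_zlev (θ c : ℕ → ℝ) (M : ℕ) : Measurable (zlev θ c M) := by
  unfold zlev
  exact measurable_const.min
    (Nat.measurable_floor.comp (Real.measurable_log.comp (measurable_weight θ c)).neg)

theorem weight_le_zlev (θ c : ℕ → ℝ) (M : ℕ) (x : ℕ → ℝ) :
    weight θ c x ≤ Real.exp (-(zlev θ c M x : ℝ)) := by
  rcases (weight_nonneg θ c x).eq_or_lt with h | h
  · rw [← h]; exact (Real.exp_pos _).le
  · have h0 : 0 ≤ -Real.log (weight θ c x) :=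
      neg_nonneg.2 (Real.log_nonpos h.le (weight_le_one θ c x))
    have h1 : (zlev θ c M x : ℝ) ≤ -Real.log (weight θ c x) := by
      refine le_trans ?_ (Nat.floor_le h0)
      exact_mod_cast min_le_right _ _
    rw [← Real.exp_log h]
    exact Real.exp_le_exp.2 (by linarith)

theorem zlev_big (θ c : ℕ → ℝ)
    (hlog : ∫⁻ x, ENNReal.ofReal (- Real.log (weight θ c x)) ∂cubeMeasure = ⊤) (K : ℝ) :
    ∃ M : ℕ, K ≤ ∑ j ∈ Finset.range (M + 1), (j : ℝ) * cubeMeasure.real {x | zlev θ c M x = j} := by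
  have hm : ∀ M, Measurable fun x => ((zlev θ c M x : ℕ) : ℝ≥0∞) := fun M =>
    (measurable_of_countable (fun n : ℕ => (n : ℝ≥0∞))).comp (measurable_zlev θ c M)
  have hmono : Monotone fun (M : ℕ) x => ((zlev θ c M x : ℕ) : ℝ≥0∞) := by
    intro M N hMN x
    simp only [Nat.cast_le, zlev]
    exact min_le_min_right _ hMN
  have hsup := lintegral_iSup (μ := cubeMeasure) hm hmono
  have htop : ⨆ M : ℕ, ∫⁻ x, ((zlev θ c M x : ℕ) : ℝ≥0∞) ∂cubeMeasure = ⊤ := by
    by_contra hne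
    have h1 : ∫⁻ x, ENNReal.ofReal (- Real.log (weight θ c x)) ∂cubeMeasure ≤
        ∫⁻ x, ((⨆ M : ℕ, ((zlev θ c M x : ℕ) : ℝ≥0∞)) + 1) ∂cubeMeasure := by
      refine lintegral_mono fun x => ?_
      have h2 : ((⌊-Real.log (weight θ c x)⌋₊ : ℕ) : ℝ≥0∞) ≤
          ⨆ M : ℕ, ((zlev θ c M x : ℕ) : ℝ≥0∞) := by
        refine le_iSup_of_le ⌊-Real.log (weight θ c x)⌋₊ ?_
        simp [zlev]
      refine le_trans ?_ (add_le_add_left h2 1)
      have h3 := (Nat.lt_floor_add_one (-Real.log (weight θ c x))).le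
      refine (ENNReal.ofReal_le_ofReal h3).trans (le_of_eq ?_)
      rw [ENNReal.ofReal_add (Nat.cast_nonneg _) zero_le_one]
      simp
    rw [lintegral_add_right _ measurable_const, hsup, hlog] at h1
    simp only [lintegral_const, measure_univ, mul_one, top_le_iff, ENNReal.add_eq_top,
      ENNReal.one_ne_top, or_false] at h1
    exact hne h1
  have hlt : ENNReal.ofReal K < ⨆ M : ℕ, ∫⁻ x, ((zlev θ c M x : ℕ) : ℝ≥0∞) ∂cubeMeasure := by
    rw [htop]; exact ENNReal.ofReal_lt_top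
  obtain ⟨M, hM⟩ := lt_iSup_iff.1 hlt
  refine ⟨M, ?_⟩
  have hset : ∀ j, MeasurableSet {x | zlev θ c M x = j} := fun j =>
    measurable_zlev θ c M (measurableSet_singleton j)
  have heq : ∫⁻ x, ((zlev θ c M x : ℕ) : ℝ≥0∞) ∂cubeMeasure =
      ∑ j ∈ Finset.range (M + 1), (j : ℝ≥0∞) * cubeMeasure {x | zlev θ c M x = j} := by
    have : ∀ x, ((zlev θ c M x : ℕ) : ℝ≥0∞) = ∑ j ∈ Finset.range (M + 1),
        {x | zlev θ c M x = j}.indicator (fun _ => (j : ℝ≥0∞)) x := by
      intro x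
      rw [Finset.sum_eq_single (zlev θ c M x)]
      · simp
      · intro j _ hj
        exact Set.indicator_of_notMem (by simpa using hj.symm) _
      · intro h
        exact absurd (Finset.mem_range.2 (Nat.lt_succ_of_le (min_le_left _ _))) h
    simp_rw [this]
    rw [lintegral_finsetSum _ fun j _ => measurable_const.indicator (hset j)]
    refine Finset.sum_congr rfl fun j _ => ?_
    rw [lintegral_indicator_const (hset j)]
  rw [heq] at hM
  have hfin : ∑ j ∈ Finset.range (M + 1), (j : ℝ≥0∞) * cubeMeasure {x | zlev θ c M x = j} ≠ ⊤ := by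
    refine ENNReal.sum_ne_top.2 fun j _ => ?_
    exact ENNReal.mul_ne_top (ENNReal.natCast_ne_top j) (measure_ne_top _ _)
  have h2 := (ENNReal.ofReal_le_iff_le_toReal hfin).1 hM.le
  rw [ENNReal.toReal_sum fun j _ =>
    ENNReal.mul_ne_top (ENNReal.natCast_ne_top j) (measure_ne_top _ _)] at h2
  simpa [Measure.real] using h2

theorem norm_sq_cut (A : Set (ℕ → ℝ)) (hA : MeasurableSet A) (v : pairSpace)
    (hv : (v : (ℕ → ℝ) × ℤ → ℂ) =ᵐ[pairMeasure]
      fun p => A.indicator (fun _ => (1 : ℂ)) p.1 * (if p.2 = 0 then 1 else 0)) :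
    ‖v‖ ^ 2 = cubeMeasure.real A := by
  have hm : pairMeasure (A ×ˢ ({0} : Set ℤ)) = cubeMeasure A := by
    rw [pairMeasure, Measure.prod_prod, Measure.count_singleton, mul_one]
  have hne : pairMeasure (A ×ˢ ({0} : Set ℤ)) ≠ ⊤ := by rw [hm]; exact measure_ne_top _ _
  have h1 : v = indicatorConstLp 2 (hA.prod (measurableSet_singleton (0 : ℤ))) hne (1 : ℂ) := by
    refine Lp.ext (hv.trans ?_)
    refine Filter.EventuallyEq.trans ?_ indicatorConstLp_coeFn.symm
    refine Filter.Eventually.of_forall fun p => ?_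
    by_cases h : p.1 ∈ A <;> by_cases h' : p.2 = 0 <;> simp [Set.indicator, h, h']
  rw [h1, norm_indicatorConstLp (by simp) (by simp)]
  simp only [norm_one, one_mul, ENNReal.toReal_ofNat, Measure.real, hm]
  rw [← Real.rpow_natCast, ← Real.rpow_mul ENNReal.toReal_nonneg]
  norm_num

theorem norm_T_cut (θ c : ℕ → ℝ) (T : pairSpace →L[ℂ] pairSpace) (hT : IsWeightedShift θ c T)
    (A : Set (ℕ → ℝ)) (r : ℝ) (hr : ∀ x ∈ A, weight θ c x ≤ r) (v : pairSpace)
    (hv : (v : (ℕ → ℝ) × ℤ → ℂ) =ᵐ[pairMeasure]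
      fun p => A.indicator (fun _ => (1 : ℂ)) p.1 * (if p.2 = 0 then 1 else 0)) :
    ‖T v‖ ≤ r * ‖v‖ := by
  have h1 : ‖Lp.compMeasurePreserving _ (mp_shift (-1)) v‖ = ‖v‖ :=
    Lp.norm_compMeasurePreserving v (mp_shift (-1))
  rw [← h1]
  refine Lp.norm_le_mul_norm_of_ae_le_mul ?_
  filter_upwards [hT v, Lp.coeFn_compMeasurePreserving v (mp_shift (-1)), ae_shift_sub hv 1,
    ae_fst (ae_orbit_zero θ)] with p h2 h3 h4 h5
  rw [h2, h3, Function.comp_apply, ← sub_eq_add_neg, h4]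
  by_cases h : p.1 ∈ A
  · by_cases h' : p.2 - 1 = 0
    · simp only [h', h5, h, Set.indicator_of_mem, if_true, mul_one, norm_one, Complex.norm_real,
        Real.norm_eq_abs, abs_of_nonneg (weight_nonneg θ c _)]
      exact hr _ h
    · simp [h']
  · simp [h]

theorem vectorDet_zero' (θ c : ℕ → ℝ)
    (hlog : ∫⁻ x, ENNReal.ofReal (- Real.log (weight θ c x)) ∂cubeMeasure = ⊤)
    (T : pairSpace →L[ℂ] pairSpace) (hT : IsWeightedShift θ c T) :
    vectorDet vacuumVector T = 0 := by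
  have key : ∀ K : ℝ, ∃ ε : ℝ, 0 < ε ∧ RCLike.re (inner ℂ vacuumVector
      (zL T ε vacuumVector)) ≤ 1 - K := by
    intro K
    obtain ⟨M, hM⟩ := zlev_big θ c hlog K
    have hset : ∀ j, MeasurableSet {x | zlev θ c M x = j} := fun j =>
      measurable_zlev θ c M (measurableSet_singleton j)
    choose P hPsa hPid hPc hP using fun j : ℕ => exists_proj θ c T hT _ (hset j)
    set ε : ℝ := Real.exp (-(2 * (M : ℝ))) with hε
    have hε0 : 0 < ε := Real.exp_pos _
    refine ⟨ε, hε0, ?_⟩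
    have hv : ∀ j : ℕ, (P j vacuumVector : (ℕ → ℝ) × ℤ → ℂ) =ᵐ[pairMeasure]
        fun p => {x | zlev θ c M x = j}.indicator (fun _ => (1 : ℂ)) p.1 *
          (if p.2 = 0 then 1 else 0) := by
      intro j
      filter_upwards [hP j vacuumVector, coe_vacuum] with p h1 h2
      rw [h1, h2]
    have hsum : ∑ j ∈ Finset.range (M + 1), P j vacuumVector = vacuumVector := by
      refine Lp.ext ?_
      have h1 := Lp.coeFn_finsetSum (Finset.range (M + 1)) (fun j => P j vacuumVector)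
      filter_upwards [h1, (ae_all_iff.2 hv), coe_vacuum] with p h2 h3 h4
      rw [h2, h4, Finset.sum_apply, Finset.sum_congr rfl fun j _ => h3 j,
        Finset.sum_eq_single (zlev θ c M p.1)]
      · simp
      · intro j _ hj
        rw [Set.indicator_of_notMem (by simpa using hj.symm), zero_mul]
      · intro h
        exact absurd (Finset.mem_range.2 (Nat.lt_succ_of_le (min_le_left _ _))) h
    have hcomm : ∀ j, Commute (zL T ε) (P j) := fun j => zL_comm T (P j) ε (hPsa j) (hPc j)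
    rw [zero_split _ _ (Finset.range (M + 1)) P (fun j _ => hPsa j) (fun j _ => hPid j)
      (fun j _ => hcomm j) hsum]
    have hterm : ∀ j ∈ Finset.range (M + 1), RCLike.re (inner ℂ (P j vacuumVector)
        (zL T ε (P j vacuumVector))) ≤
        (if j = 0 then 1 else 0) - (j : ℝ) * cubeMeasure.real {x | zlev θ c M x = j} := by
      intro j hj
      have hjM : (j : ℝ) ≤ M := by exact_mod_cast Nat.lt_succ_iff.1 (Finset.mem_range.1 hj)
      set a : ℝ := Real.exp (-(2 * (j : ℝ))) with ha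
      have ha0 : 0 < a := Real.exp_pos _
      have h1 := zL_tangent T ε hε0 a ha0 (P j vacuumVector)
      have h2 := norm_sq_cut _ (hset j) _ (hv j)
      have h3 := norm_T_cut θ c T hT _ (Real.exp (-(j : ℝ))) (fun x hx => by
        have := weight_le_zlev θ c M x
        rwa [show zlev θ c M x = j from hx] at this) _ (hv j)
      have h4 : ‖T (P j vacuumVector)‖ ^ 2 ≤ a * ‖P j vacuumVector‖ ^ 2 := by
        refine (pow_le_pow_left₀ (norm_nonneg _) h3 2).trans (le_of_eq ?_)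
        rw [mul_pow, ha, ← Real.exp_nat_mul]
        congr 2
        push_cast
        ring
      have h5 : ε ≤ a := Real.exp_le_exp.2 (by linarith)
      have h6 : Real.log a = -(2 * (j : ℝ)) := Real.log_exp _
      rw [h2] at h1 h4
      set m : ℝ := cubeMeasure.real {x | zlev θ c M x = j} with hm
      have hm0 : 0 ≤ m := measureReal_nonneg
      have hm1 : m ≤ 1 := measureReal_le_one
      have h7 : (‖T (P j vacuumVector)‖ ^ 2 + ε * m) / a ≤ 2 * m := by
        rw [div_le_iff₀ ha0]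
        nlinarith
      rw [h6] at h1
      refine h1.trans ?_
      split_ifs with hj0
      · subst hj0
        simp only [Nat.cast_zero]
        linarith
      · have : (1 : ℝ) ≤ j := by exact_mod_cast Nat.one_le_iff_ne_zero.2 hj0
        nlinarith
    refine (Finset.sum_le_sum hterm).trans ?_
    rw [Finset.sum_sub_distrib, Finset.sum_ite_eq' (Finset.range (M + 1)) 0 (fun _ => (1 : ℝ))]
    simp only [Finset.mem_range, Nat.succ_pos, if_true]
    linarith
  rw [vectorDet_eq_zL]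
  refine le_antisymm ?_ (Real.iInf_nonneg fun _ => (Real.exp_pos _).le)
  refine le_of_forall_pos_le_add fun δ hδ => ?_
  obtain ⟨ε, hε, h⟩ := key (1 - 2 * Real.log δ)
  refine ciInf_le_of_le ⟨0, ?_⟩ ⟨ε, hε⟩ ?_
  · rintro _ ⟨e, rfl⟩
    exact (Real.exp_pos _).le
  · rw [zero_add, ← Real.exp_log hδ]
    exact Real.exp_le_exp.2 (by linarith)

theorem vectorDet_zero (θ c : ℕ → ℝ) (_hθ : ∀ i, 0 < θ i ∧ θ i < 1) (_hc : ∀ i, 0 ≤ c i)
    (_hpos : ∀ᵐ x ∂cubeMeasure, 0 < weight θ c x)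
    (hlog : ∫⁻ x, ENNReal.ofReal (- Real.log (weight θ c x)) ∂cubeMeasure = ⊤)
    (T : pairSpace →L[ℂ] pairSpace) (hT : IsWeightedShift θ c T) :
    vectorDet vacuumVector T = 0 :=
  vectorDet_zero' θ c hlog T hT

end Crest.Agent.R113C
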